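import Vale.Agent.P123.Main

/-!
# P123 : Crouzeix's constant is at most `1 + √2 - 10⁻⁸⁰`

For every bounded operator `A` on a nonzero complex Hilbert space and every polynomial `P`,
`‖P(A)‖ ≤ (1 + √2 - 10⁻⁸⁰) sup_{z ∈ W(A)} |P(z)|`.
-/

namespace Vale.Agent.Results.P123.BelowCrouzeixPalencia

open _root_.P123

theorem bddAbove_image {H : Type*} [NormedAddCommGroup H] [InnerProductSpace ℂ H]
    (A : H →L[ℂ] H) (P : Polynomial ℂ) :
    BddAbove ((fun z => ‖P.eval z‖) '' numRange A) := by
  have hK : IsCompact (Metric.closedBall (0 : ℂ) ‖A‖) := isCompact_closedBall _ _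
  have h1 := (hK.image (P.continuous.norm)).bddAbove
  refine h1.mono (Set.image_mono fun z hz => ?_)
  rw [mem_closedBall_zero_iff]
  exact norm_le_of_numRange A hz

theorem result {H : Type*} [NormedAddCommGroup H] [InnerProductSpace ℂ H] [CompleteSpace H]
    [Nontrivial H] (A : H →L[ℂ] H) (P : Polynomial ℂ) :
    ‖Polynomial.aeval A P‖ ≤
      (1 + √2 - 1 / 10 ^ 80) * sSup ((fun z => ‖P.eval z‖) '' numRange A) :=
  main A P fun z hz => le_csSup (bddAbove_image A P) ⟨z, hz, rfl⟩

end Vale.Agent.Results.P123.BelowCrouzeixPalencia
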